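import Vale.Agent.P275GU.Loc

/-!
# P275, block GLUE: the Deligne extension in families from the chart data
-/

set_option linter.unusedSectionVars false

open scoped Topology Real Matrix.Norms.Operator
open Filter Set Metric Complex
open Vale.Agent.P275GC (At)
open Vale.Agent.P275GC.At
open Vale.Agent.P275NA (Cy Fm Mn)
open Vale.Agent.P275MO Vale.Agent.P275RL
open Vale.Agent.P275RH (cwd)
open Vale.Agent.P275Z

noncomputable section

namespace Vale.Agent.P275GU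

variable {C : Type} [TopologicalSpace C] {n g : ℕ} {A : At C} {l : Cy A ℂ} {d : ℤ}
  {P : Loc A l g n d} {r : ℝ} {W : Set C} {h1 : 1 < r} {h2 : r ≤ A.R}
  {i j : Fin A.N} {k : P.ι} {τ : Pa C g n} {w : ℂ}

/-- the frame at the pole -/
def sg (D : Cd P r W j) (τ : Pa C g n) : Mn n := gm D τ (A.e j τ.1)

/-- a member of the cover -/
def kk (P : Loc A l g n d) (y : Wd P.V) : P.ι := (P.cy.cov y).choose

theorem kk_mem (y : Wd P.V) : y ∈ P.U (kk P y) := (P.cy.cov y).choose_spec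

/-- the pair (pole, point) -/
abbrev wp {y : C} (h : τ.1 ∈ P.V ∧ y ≠ τ.1) : Wd P.V := ⟨(τ.1, y), h⟩

open Classical in
/-- the cocycle -/
def gg (D : ∀ j, Cd P r W j) (τ : Pa C g n) (i j : Fin A.N) (w : ℂ) : Mn n :=
  if h : τ.1 ∈ P.V ∧ (A.e i).symm w ≠ τ.1 then
    fr (D i) (kk P (wp h)) τ w * (fr (D j) (kk P (wp h)) τ (A.tr i j w))⁻¹
  else sg (D i) τ * (sg (D j) τ)⁻¹

/-- the object -/
def ob (D : ∀ j, Cd P r W j) (τ : Pa C g n) : Dat C A.N n :=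
  ⟨1, τ.1, gg D τ, fun j => ac (D j) τ, fun j => sg (D j) τ, τ.2.1⟩

theorem inR_l (o : w ∈ (A.res r h1 h2).O i j) : InR A r i ((A.e i).symm w) :=
  map_tgt (A := A.res r h1 h2) o.1

theorem inR_r (o : w ∈ (A.res r h1 h2).O i j) : InR A r j ((A.e i).symm w) := o.2

theorem rv (o : w ∈ (A.res r h1 h2).O i j) : A.e i ((A.e i).symm w) = w := rinv (res_O.1 o).1.1

variable (D : ∀ j, Cd P r W j)

theorem gg_at (h : (A.e i).symm w = τ.1) : gg D τ i j w = sg (D i) τ * (sg (D j) τ)⁻¹ :=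
  dif_neg fun a => a.2 h

theorem gg_eq (hτ : τ ∈ Om d W) (o : w ∈ (A.res r h1 h2).O i j)
    (h : τ.1 ∈ P.V ∧ (A.e i).symm w ≠ τ.1) (hk : wp h ∈ P.U k) :
    gg D τ i j w = fr (D i) k τ w * (fr (D j) k τ (A.tr i j w))⁻¹ := by
  have a := fr_coc (D i) hτ h (inR_l o) hk (kk_mem _)
  have b : fr (D j) _ τ (A.tr i j w) = fr (D j) k τ (A.tr i j w) * _ :=
    fr_coc (D j) hτ h (inR_r o) hk (kk_mem _)
  rw [rv o] at a
  rw [gg, dif_pos h, a, b, div_can (wv_det_ne _ _)]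

theorem sg_det (hτ : τ ∈ Om d W) (hj : InR A r j τ.1) :
    (sg (D j) τ).det = l j P.a (A.e j τ.1) :=
  (gm_det _ hτ _).trans ((D j).pole (((D j).src _ hτ.1).2 hj) _ hτ.1).self_of_nhds.2.2.2.2.1

variable (hl : A.Cc l) (hV : W ⊆ P.V)
include hl hV

theorem sg_ne (hτ : τ ∈ Om d W) (hj : InR A r j τ.1) : (sg (D j) τ).det ≠ 0 :=
  (sg_det D hτ hj).trans_ne (hl.ne (mem_O hj.1 (P.sub _ (hV hτ.1)).1))

theorem gg_det (hτ : τ ∈ Om d W) (o : w ∈ (A.res r h1 h2).O i j) :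
    (gg D τ i j w).det = l i j w := by
  have o' := (res_O.1 o).1
  by_cases h : (A.e i).symm w = τ.1
  · have hi := h ▸ inR_l o
    have hj := h ▸ inR_r o
    have ha := (P.sub _ (hV hτ.1)).1
    rw [gg_at D h, det_div, sg_det D hτ hi, sg_det D hτ hj,
      hl.mul i j P.a _ (mem_O hi.1 hj.1) (mem_O hi.1 ha), tr_e hi.1,
      mul_div_cancel_right₀ _ (hl.ne (mem_O hj.1 ha)), ← h, rv o]
  · have a := fr_det (D i) hτ ⟨hV hτ.1, h⟩ (inR_l o)
    have b : ∀ k, (fr (D j) k τ (A.tr i j w)).det = P.u τ.1 j (A.tr i j w) :=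
      fr_det (D j) hτ ⟨hV hτ.1, h⟩ (inR_r o)
    rw [rv o] at a
    rw [gg_eq D hτ o ⟨hV hτ.1, h⟩ (kk_mem _), det_div, a, b, P.ul _ (hV hτ.1) i j w o' h,
      mul_div_cancel_right₀ _ (P.un _ (hV hτ.1) j _ (P275MB.off_tr o' h))]

theorem gg_mul (hτ : τ ∈ Om d W) {m : Fin A.N} (o : w ∈ (A.res r h1 h2).O i j)
    (o' : w ∈ (A.res r h1 h2).O i m) : gg D τ i m w = gg D τ i j w * gg D τ j m (A.tr i j w) := by
  have e := symm_tr (res_O.1 o).1
  by_cases h : (A.e i).symm w = τ.1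
  · rw [gg_at D h, gg_at D h, gg_at D (e.trans h), ← mul_assoc,
      div_mul (sg_ne D hl hV hτ (h ▸ inR_r o))]
  · have h' : τ.1 ∈ P.V ∧ (A.e i).symm w ≠ τ.1 := ⟨hV hτ.1, h⟩
    have o2 : A.tr i j w ∈ (A.res r h1 h2).O j m := tr_O o o'
    rw [gg_eq D hτ o h' (kk_mem _), gg_eq D hτ o' h' (kk_mem _), gg_eq D hτ o2
      ⟨h'.1, e.trans_ne h⟩ (k := kk P (wp h')) (by simp only [wp, e]; exact kk_mem _), ← mul_assoc,
      tr_tr (res_O.1 o).1]
    exact congrArg (· * _) (div_mul (fr_ne (D j) hτ h' (inR_r o) _) _).symm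

theorem gg_one (hτ : τ ∈ Om d W) (o : w ∈ ball (0 : ℂ) r) (h1 : 1 < r) (h2 : r ≤ A.R) :
    gg D τ i i w = 1 := by
  have o' : w ∈ (A.res r h1 h2).O i i := O_self o
  by_cases h : (A.e i).symm w = τ.1
  · rw [gg_at D h, mul_inv' (sg_ne D hl hV hτ (h ▸ inR_l o'))]
  · have a := fr_ne (D i) hτ ⟨hV hτ.1, h⟩ (inR_l o')
    rw [rv o'] at a
    rw [gg_eq D hτ o' ⟨hV hτ.1, h⟩ (kk_mem _), tr_self (ball_subset_ball h2 o), mul_inv' (a _)]

omit hl hV in
theorem ctr (o : w ∈ (A.res r h1 h2).O i j) :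
    ContinuousAt (fun p : Pa C g n × ℂ => (p.1, A.tr i j p.2)) (τ, w) :=
  continuousAt_fst.prodMk ((an_tr (res_O.1 o).1).continuousAt.comp (f := Prod.snd) (x := (τ, w))
    continuousAt_snd)

omit hl hV in
theorem cinv {X : Type} [TopologicalSpace X] {f : X → Mn n} {s : Set X} {x : X}
    (h : ContinuousWithinAt f s x) (d : (f x).det ≠ 0) : ContinuousWithinAt (fun y => (f y)⁻¹) s x :=
  (P275MB.ca_inv d).comp_continuousWithinAt h

omit hl in
theorem gg_pole (hτ : τ ∈ Om d W) (o : w ∈ (A.res r h1 h2).O i j) (h : (A.e i).symm w = τ.1) :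
    ∀ᶠ p : Pa C g n × ℂ in 𝓝[Om d W ×ˢ univ] (τ, w),
      gg D p.1 i j p.2 = gm (D i) p.1 p.2 * (gm (D j) p.1 (A.tr i j p.2))⁻¹ := by
  have a := (D i).pole (((D i).src _ hτ.1).2 (h ▸ inR_l o)) _ hτ.1
  have b := (D j).pole (((D j).src _ hτ.1).2 (h ▸ inR_r o)) _ hτ.1
  rw [show A.e i τ.1 = w from h ▸ rv o] at a
  rw [show A.e j τ.1 = A.tr i j w from h ▸ rfl] at b
  filter_upwards [self_mem_nhdsWithin, mem_nhdsWithin_of_mem_nhds
    ((cq.continuousAt (x := (τ, w))).eventually a), mem_nhdsWithin_of_mem_nhds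
    (((cq.continuousAt (x := (τ, A.tr i j w))).tendsto.comp (ctr o)).eventually b),
    mem_nhdsWithin_of_mem_nhds (continuousAt_snd.eventually (O_nhds o))] with p x y z o
  by_cases h : (A.e i).symm p.2 = p.1.1
  · rw [gg_at D h, sg, sg, ← h, rv o]
    rfl
  have h' : p.1.1 ∈ P.V ∧ (A.e i).symm p.2 ≠ p.1.1 := ⟨hV x.1.1, h⟩
  obtain ⟨q, e, f⟩ := y.2.2.2.2.2 (wp h') _ rfl (kk_mem _)
  obtain ⟨q', e', f'⟩ := z.2.2.2.2.2 (wp h') _
    (congrArg (Prod.mk _) (symm_tr (res_O.1 o).1).symm) (kk_mem _)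
  have t := fr_pole (D j) x.1 f'
  have u : (fr (D j) _ p.1 (A.tr i j p.2)).det ≠ 0 := fr_ne (D j) x.1 h' (inR_r o) (kk P (wp h'))
  rw [gg_eq D x.1 o h' (kk_mem _), fr_pole (D i) x.1 f,
    Eqv.mf x.1.2.2.2 (P.eqv (e.trans e'.symm) (e ▸ kk_mem _)), t, div_can]
  rw [t, Matrix.det_mul] at u
  exact right_ne_zero_of_mul u

variable [T2Space C]

omit hl hV in
theorem gg_off (o : w ∈ (A.res r h1 h2).O i j) (h : τ.1 ∈ P.V ∧ (A.e i).symm w ≠ τ.1)
    (hk : wp h ∈ P.U k) :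
    ∀ᶠ p : Pa C g n × ℂ in 𝓝[Om d W ×ˢ univ] (τ, w),
      gg D p.1 i j p.2 = fr (D i) k p.1 p.2 * (fr (D j) k p.1 (A.tr i j p.2))⁻¹ := by
  filter_upwards [self_mem_nhdsWithin, mem_nhdsWithin_of_mem_nhds
    ((cq.continuousAt (x := (τ, w))).eventually (ev_U h (res_O.1 o).1.1 hk)),
    mem_nhdsWithin_of_mem_nhds (continuousAt_snd.eventually (O_nhds o))] with p x ⟨y, z⟩ o
  exact gg_eq D x.1 o y z

theorem gg_an (hn : n ≠ 0) (hτ : τ ∈ Om d W) (o : w ∈ (A.res r h1 h2).O i j) :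
    AnalyticAt ℂ (gg D τ i j) w ∧ ((A.e i).symm w ≠ τ.1 → ∃ c : ℂ,
      ac (D i) τ w * gg D τ i j w + deriv (gg D τ i j) w =
        gg D τ i j w * (A.d i j w • ac (D j) τ (A.tr i j w)) + c • gg D τ i j w) := by
  have o' := (res_O.1 o).1
  by_cases h : (A.e i).symm w = τ.1
  · have a := ((D i).pole (((D i).src _ hτ.1).2 (h ▸ inR_l o)) _ hτ.1).self_of_nhds
    have b := ((D j).pole (((D j).src _ hτ.1).2 (h ▸ inR_r o)) _ hτ.1).self_of_nhds
    have c := sg_ne D hl hV hτ (h ▸ inR_r o)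
    rw [show A.e i τ.1 = w from h ▸ rv o] at a
    rw [sg] at c
    rw [show A.e j τ.1 = A.tr i j w from h ▸ rfl] at b c
    exact ⟨((gm_an (D i) a.2.2.1 a.2.2.2.1).mul (an_inv (AnalyticAt.comp (f := A.tr i j)
      (gm_an (D j) b.2.2.1 b.2.2.2.1) (an_tr o')) c)).congr
        (EventuallyEq.symm ((sl hτ w).eventually (gg_pole D hV hτ o h))), fun e => absurd h e⟩
  · have h' : τ.1 ∈ P.V ∧ (A.e i).symm w ≠ τ.1 := ⟨hV hτ.1, h⟩
    have a := fr_pf (D i) hτ h' (inR_l o) (kk_mem _)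
    rw [rv o] at a
    have b := pf_div hn a (PF.comp (τ := A.tr i j) (fr_pf (D j) hτ h' (inR_r o) (kk_mem _))
      (an_tr o')) (fr_ne (D j) hτ h' (inR_r o) _) ((sl hτ w).eventually (gg_off D o h' (kk_mem _)))
      ((hl.an o').congr (eventually_of_mem (O_nhds o) fun v e => (gg_det D hl hV hτ e).symm))
      ((gg_det D hl hV hτ o).trans_ne (hl.ne o'))
    exact ⟨b.1, fun _ => b.2⟩

theorem gg_cont (hτ : τ ∈ Om d W) (o : w ∈ (A.res r h1 h2).O i j) :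
    ContinuousWithinAt (fun p : Pa C g n × ℂ => gg D p.1 i j p.2) (Om d W ×ˢ univ) (τ, w) := by
  have m : (τ, w) ∈ Om d W ×ˢ (univ : Set ℂ) := ⟨hτ, trivial⟩
  by_cases h : (A.e i).symm w = τ.1
  · have a := ((D i).pole (((D i).src _ hτ.1).2 (h ▸ inR_l o)) _ hτ.1).self_of_nhds
    have b := ((D j).pole (((D j).src _ hτ.1).2 (h ▸ inR_r o)) _ hτ.1).self_of_nhds
    have c := sg_ne D hl hV hτ (h ▸ inR_r o)
    rw [show A.e i τ.1 = w from h ▸ rv o] at a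
    rw [sg] at c
    rw [show A.e j τ.1 = A.tr i j w from h ▸ rfl] at b c
    have e := gg_pole D hV hτ o h
    exact ((gm_cont (D i) a.1 a.2.1).continuousWithinAt.mul (cinv (ContinuousAt.comp
      (f := fun p : Pa C g n × ℂ => (p.1, A.tr i j p.2)) (gm_cont (D j) b.1 b.2.1)
        (ctr o)).continuousWithinAt c)).congr_of_eventuallyEq e (e.self_of_nhdsWithin m)
  · have h' : τ.1 ∈ P.V ∧ (A.e i).symm w ≠ τ.1 := ⟨hV hτ.1, h⟩
    have a := fr_cont (D i) hτ h' (inR_l o) (kk_mem _)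
    have e := gg_off D o h' (kk_mem _)
    rw [rv o] at a
    exact (a.mul (cinv (ContinuousWithinAt.comp (f := fun p : Pa C g n × ℂ => (p.1, A.tr i j p.2))
      (fr_cont (D j) hτ h' (inR_r o) (kk_mem _)) (ctr o).continuousWithinAt
        fun _ b => ⟨b.1, trivial⟩) (fr_ne (D j) hτ h' (inR_r o) _))).congr_of_eventuallyEq e
      (e.self_of_nhdsWithin m)

theorem sg_conj (hτ : τ ∈ Om d W) (hj : InR A r j τ.1) :
    sg (D j) τ * τ.2.1 * (sg (D j) τ)⁻¹ = τ.2.1 := by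
  have := sg_ne D hl hV hτ hj
  rw [sg] at this ⊢
  rw [gm_comm, mul_assoc, mul_inv' this, mul_one]

theorem ob_good (hn : n ≠ 0) (hτ : τ ∈ Om d W) : Good (A.res r h1 h2) l (ob (A := A) D τ) where
  cc := ⟨fun _ _ _ o => (gg_an D hl hV hn hτ o).1.differentiableAt.differentiableWithinAt,
    fun _ _ o => gg_one D hl hV hτ o h1 h2, fun _ _ _ _ o o' => gg_mul D hl hV hτ o o'⟩
  det _ _ _ o := gg_det D hl hV hτ o
  hol i _ o := ((α_cont (D i) hτ o.2).2.smul_const τ.2.1).differentiableWithinAt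
  tr i w _ := (Matrix.trace_smul _ _).trans (smul_eq_zero_of_right _ hτ.2.1)
  law i j w o h := by
    obtain ⟨c, e⟩ := (gg_an D hl hV hn hτ o).2 h
    exact ⟨c, (congrArg _ (one_smul _ _)).trans (e.trans (congrArg (· + _) (mul_smul_comm _ _ _)))⟩
  fr _ h := sg_ne D hl hV hτ h
  frc i j h h' := ((congrArg (· * _) (gg_at D ((A.e i).left_inv h.1))).trans
    (div_mul (sg_ne D hl hV hτ h') _)).symm
  pole i h := (sg_conj D hl hV hτ h).symm ▸ tendsto_const_nhds.congr'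
    (eventually_nhdsWithin_of_forall fun w e => (ac_pole (D i) hτ h e).symm)

theorem ob_fam (hn : n ≠ 0) : FamOn (A.res r h1 h2) l (ob (A := A) D) (Om d W) where
  good _ hτ := ob_good D hl hV hn hτ
  lam := continuousOn_const
  x := continuousOn_fst
  R := continuousOn_snd.fst
  g _ _ _ o := (gg_cont D hl hV o.1 o.2).mono (prod_mono Subset.rfl (subset_univ _))
  a i _ o := ((cqc (α_cont (D i) o.1 o.2.2).1).smul continuousAt_fst.snd.fst).continuousWithinAt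
  σ i τ o := by
    have a := ((D i).pole (((D i).src _ o.1.1).2 o.2) _ o.1.1).self_of_nhds
    exact (ContinuousAt.comp (f := fun τ : Pa C g n => (τ, A.e i τ.1)) (gm_cont (D i) a.1 a.2.1)
      (continuousAt_id.prodMk (((A.e i).continuousAt o.2.1).comp (f := Prod.fst)
        continuousAt_fst))).continuousWithinAt

theorem ob_rel (hn : n ≠ 0) (h1 : 1 < r) (h2 : r ≤ A.R) (hτ : τ ∈ Om d W) :
    P275RL.Rel P (ob D τ) τ.2.2 := by
  have hx := hV hτ.1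
  have u : ∀ {j y}, InU A j y → InR A r j y := fun a => InU.res (h1 := h1) (h2 := h2) a
  have ha := u (P.inU hx)
  obtain ⟨n1, n2⟩ := (D P.a).nrm rfl
  refine ⟨⟨⟨r, h1, h2, ob_good D hl hV hn hτ⟩, rfl, hτ.2.2.1⟩, hx, fun k j => fr (D j) k τ,
    ⟨fun y k j a b => fr_pf (D j) hτ ⟨hx, y.2⟩ (u b) a,
      fun y k j _ b => fr_det (D j) hτ ⟨hx, y.2⟩ (u b) k, fun y k j j' a b c => ?_,
      fun y k m j a b c => fr_coc (D j) hτ ⟨hx, y.2⟩ (u c) a b⟩, fun _ => 1,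
    ⟨⟨differentiableOn_const _, fun w _ => ?_⟩, ?_⟩, fun q k e a => ⟨P.s q, ?_⟩⟩
  · have e := (A.e j).left_inv b.1
    refine ((congrArg (· * _) (gg_eq D hτ (InU.O (h1 := h1) (h2 := h2) b c) ⟨hx, e.trans_ne y.2⟩
      (k := k) (by simp only [e]; exact a))).trans ?_).symm
    rw [tr_e b.1]
    exact div_mul (fr_ne (D j') hτ ⟨hx, y.2⟩ (u c) k) _
  · rw [deriv_const, smul_zero, zero_add, mul_one, one_mul, fill]
    split_ifs with h
    · exact sg_conj D hl hV hτ ha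
    · exact ac_pole (D P.a) hτ ha (ne_of_symm ha.1 h)
  · show _ = gm (D P.a) τ _
    rw [gm, (n1 _).1, (n1 _).2, ex_zero, one_smul]
  · refine (congrArg (· * _) (Eqv.mf hτ.2.2.2 (n2 q k _ (e ▸ hτ.1) a (by rw [e]; rfl)))).trans ?_
    simp only [mf]
    rw [smul_mul_assoc, mul_assoc, wv_inv_mul, mul_one, one_mul]
    rfl

omit hl hV in
/-- **GLUE** -/
theorem glue {e : ℤ} (hS : Std A l n e) (P : Loc A l g n d) : GLUE P := by
  intro r h1 h2 W _ hV hD T _ x R ρ cx cR cρ h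
  have := hS.t2
  have hn : n ≠ 0 := (two_pos.trans_le hS.two).ne'
  have D := fun j => (hD j).some
  have m : ∀ t, x t ∈ W → (x t, R t, ρ t) ∈ Om d W := fun t a => ⟨a, h t⟩
  exact ⟨fun t => ob D (x t, R t, ρ t), P275MB.FamOn.comp (ob_fam D hS.cc hV hn)
    (cx.prodMk (cR.prodMk cρ)).continuousOn m,
    fun t a => ⟨rfl, rfl, ob_rel D hS.cc hV hn h1 h2 (m t a)⟩⟩

end Vale.Agent.P275GU
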