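import Vale.Agent.P275RL.Cd

/-!
# P275, block GLUE: the model frames
-/

set_option linter.unusedSectionVars false

open scoped Topology Real Matrix.Norms.Operator
open Filter Set Metric Complex
open Vale.Agent.P275GC (At)
open Vale.Agent.P275GC.At
open Vale.Agent.P275NA (Cy Fm Mn)
open Vale.Agent.P275MO Vale.Agent.P275RL
open Vale.Agent.P275MB (dmul deriv_minv)
open Vale.Agent.P275RH (cwd)
open Vale.Agent.P275Z
open Vale.Agent.P281Z.Hm (an_det)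

noncomputable section

namespace Vale.Agent.P275GU

variable {C : Type} [TopologicalSpace C] {n g : ℕ}

section div

variable {a a' Φ Ψ F F' G : ℂ → Mn n} {w : ℂ} {M : Mn n}

theorem div_can (d : M.det ≠ 0) (X Y : Mn n) : X * M * (Y * M)⁻¹ = X * Y⁻¹ := by
  rw [Matrix.mul_inv_rev, mul_assoc, mul_inv_can d]

theorem div_mul (d : M.det ≠ 0) (X : Mn n) : X * M⁻¹ * M = X := by
  rw [mul_assoc, inv_mul' d, mul_one]

theorem det_div (X Y : Mn n) : (X * Y⁻¹).det = X.det / Y.det := by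
  rw [Matrix.det_mul, Matrix.det_nonsing_inv, Ring.inverse_eq_inv, div_eq_mul_inv]

theorem ph_div (h : PH a Φ w) (h' : PH a' Ψ w) : AnalyticAt ℂ (fun v => Φ v * (Ψ v)⁻¹) w ∧
    ∃ c : ℂ, a w * (Φ w * (Ψ w)⁻¹) + deriv (fun v => Φ v * (Ψ v)⁻¹) w =
      Φ w * (Ψ w)⁻¹ * a' w + c • (Φ w * (Ψ w)⁻¹) := by
  obtain ⟨c, x⟩ := h.eq.self_of_nhds
  obtain ⟨c', y⟩ := h'.eq.self_of_nhds
  refine ⟨h.an.mul (an_inv h'.an h'.det), c - c', ?_⟩
  rw [dmul h.an (an_inv h'.an h'.det), deriv_minv h'.an h'.det, eq_sub_of_add_eq x,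
    eq_sub_of_add_eq y]
  simp only [mul_sub, sub_mul, mul_neg, mul_assoc, mul_smul_comm, smul_mul_assoc, mul_inv' h'.det,
    mul_one, sub_smul]
  abel

theorem hd' (h : AnalyticAt ℂ Φ w) : HasDerivAt Φ (deriv Φ w) w := hd h

theorem pf_div (hn : n ≠ 0) (h : PF a F w) (h' : PF a' F' w) (d' : (F' w).det ≠ 0)
    (e : G =ᶠ[𝓝 w] fun v => F v * (F' v)⁻¹) (hd : AnalyticAt ℂ (fun v => (G v).det) w)
    (d : (G w).det ≠ 0) : AnalyticAt ℂ G w ∧ ∃ c : ℂ, a w * G w + deriv G w = G w * a' w + c • G w := by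
  have c' := det_near h'.cont d'
  obtain ⟨s, Ψ, x, y, z⟩ := h'
  have s0 : ∀ᶠ v in 𝓝 w, s v ≠ 0 := by
    filter_upwards [c', z] with v p q c
    exact p (by rw [q, Matrix.det_smul, c, Fintype.card_fin, zero_pow hn, zero_mul])
  have p : PF a (fun v => G v * Ψ v) w := by
    refine (h.smul (t := fun v => (s v)⁻¹) ((x.and s0).mono fun v b => b.1.inv₀ b.2)).congr
      EventuallyEq.rfl ?_
    filter_upwards [c', z, s0, e] with v b c t u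
    rw [← div_mul b (F v), ← u, c, mul_smul_comm, inv_smul_smul₀ t]
  have q := p.ph hn (by rw [Matrix.det_mul]; exact mul_ne_zero d y.det)
    (by simp only [Matrix.det_mul]; exact hd.mul (an_det y.an))
  have t : (fun v => G v * Ψ v * (Ψ v)⁻¹) =ᶠ[𝓝 w] G :=
    y.ev.mono fun v b => by simp only [mul_assoc, mul_inv' b.det, mul_one]
  obtain ⟨u, c, v⟩ := ph_div q y
  exact ⟨u.congr t, c, by
    rwa [dv ((hd' (u.congr t)).congr_of_eventuallyEq t),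
      show G w * Ψ w * (Ψ w)⁻¹ = G w from t.self_of_nhds] at v⟩

end div

/-- pole, residue, monodromy -/
abbrev Pa (C : Type) (g n : ℕ) : Type := C × Mn n × Tup g n

/-- the admissible parameters -/
def Om (d : ℤ) (W : Set C) : Set (Pa C g n) :=
  {τ | τ.1 ∈ W ∧ τ.2.1.trace = 0 ∧ Gen d τ.2.1 ∧ wv τ.2.2 (cwd g) = mon d τ.2.1}

variable {A : At C} {l : Cy A ℂ} {d : ℤ} {P : Loc A l g n d} {r : ℝ} {W : Set C}
  {i j : Fin A.N} {k m : P.ι} {τ : Pa C g n} {y : C} {w : ℂ}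

/-- the frames -/
def fr (D : Cd P r W j) (k : P.ι) (τ : Pa C g n) (w : ℂ) : Mn n :=
  mf τ.2.1 τ.2.2 (D.S (τ.1, w), D.Λ (τ.1, w), D.B k (τ.1, w))

/-- the connection -/
def ac (D : Cd P r W j) (τ : Pa C g n) (w : ℂ) : Mn n := D.α (τ.1, w) • τ.2.1

/-- the gauge near the pole -/
def gm (D : Cd P r W j) (τ : Pa C g n) (w : ℂ) : Mn n := D.θ (τ.1, w) • ex τ.2.1 (D.η (τ.1, w))

theorem sl {S : Set (Pa C g n)} (h : τ ∈ S) (w : ℂ) :
    Tendsto (fun v => (τ, v)) (𝓝 w) (𝓝[S ×ˢ univ] (τ, w)) :=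
  tendsto_nhdsWithin_iff.2 ⟨(Continuous.prodMk_right τ).continuousAt,
    Eventually.of_forall fun _ => ⟨h, trivial⟩⟩

theorem cq : Continuous fun p : Pa C g n × ℂ => (p.1.1, p.2) := by fun_prop

theorem cqc {Y : Type} [TopologicalSpace Y] {f : C × ℂ → Y} (h : ContinuousAt f (τ.1, w)) :
    ContinuousAt (fun p : Pa C g n × ℂ => f (p.1.1, p.2)) (τ, w) :=
  ContinuousAt.comp (f := fun p : Pa C g n × ℂ => (p.1.1, p.2)) h cq.continuousAt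

variable (D : Cd P r W j)

theorem fr_coc (hτ : τ ∈ Om d W) (h : τ.1 ∈ P.V ∧ y ≠ τ.1) (hj : InR A r j y)
    (hk : (⟨(τ.1, y), h⟩ : Wd P.V) ∈ P.U k) (hm : (⟨(τ.1, y), h⟩ : Wd P.V) ∈ P.U m) :
    fr D m τ (A.e j y) = fr D k τ (A.e j y) * wv τ.2.2 (P.c k m ⟨(τ.1, y), h⟩) := by
  have e : D.B k (τ.1, A.e j y) = _ := D.coc ⟨(τ.1, y), h⟩ k m hτ.1 hj hk hm
  simp only [fr, mf]
  rw [e, mul_inv_rev, smul_mul_assoc, mul_assoc, ← wv_mul, inv_mul_cancel_right]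

theorem fr_det (hτ : τ ∈ Om d W) (h : τ.1 ∈ P.V ∧ y ≠ τ.1) (hj : InR A r j y) (k : P.ι) :
    (fr D k τ (A.e j y)).det = P.u τ.1 j (A.e j y) := by
  have e : D.S (τ.1, A.e j y) ^ n = _ := D.pow ⟨(τ.1, y), h⟩ hτ.1 hj
  simp only [fr, mf]
  rw [Matrix.det_smul, Matrix.det_mul, det_ex, wv_det, hτ.2.1, mul_zero, exp_zero, mul_one, mul_one,
    Fintype.card_fin, e]

theorem fr_ne (hτ : τ ∈ Om d W) (h : τ.1 ∈ P.V ∧ y ≠ τ.1) (hj : InR A r j y) (k : P.ι) :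
    (fr D k τ (A.e j y)).det ≠ 0 :=
  (fr_det D hτ h hj k).trans_ne (P.un _ h.1 j _ ⟨map_src hj.1,
    ((A.e j).left_inv hj.1).trans_ne h.2⟩)

theorem fr_pf (hτ : τ ∈ Om d W) (h : τ.1 ∈ P.V ∧ y ≠ τ.1) (hj : InR A r j y)
    (hk : (⟨(τ.1, y), h⟩ : Wd P.V) ∈ P.U k) : PF (ac D τ) (fr D k τ) (A.e j y) := by
  obtain ⟨s, ℓ, β, e⟩ := D.loc ⟨(τ.1, y), h⟩ k hτ.1 hj hk
  have c := Continuous.prodMk_right (Y := ℂ) τ.1
  have e' := c.continuousAt.eventually e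
  refine ⟨fun v => s (τ.1, v), fun v => ex τ.2.1 (-ℓ (τ.1, v)) * wv τ.2.2 β⁻¹,
    e'.mono fun v a => a.1.comp c.continuousAt,
    PH.mul (Φ := fun v => ex τ.2.1 (-ℓ (τ.1, v))) ⟨ex_an analyticAt_const
      (analyticAt_iff_eventually_differentiableAt.2 (e'.mono fun v a =>
        a.2.2.1.differentiableAt)).neg, ex_det_ne _ _, e'.mono fun v a => ⟨0, ?_⟩⟩ (wv_det_ne _ _),
    e'.mono fun v a => Eqv.mf hτ.2.2.2 a.2.2.2⟩
  rw [dv (Φ := fun v => ex τ.2.1 (-ℓ (τ.1, v))) ((ex_neg_der τ.2.1 _).scomp v a.2.2.1), ac,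
    smul_mul_assoc, ex_comm, smul_neg, neg_add_cancel, zero_smul]

theorem fr_cont (hτ : τ ∈ Om d W) (h : τ.1 ∈ P.V ∧ y ≠ τ.1) (hj : InR A r j y)
    (hk : (⟨(τ.1, y), h⟩ : Wd P.V) ∈ P.U k) :
    ContinuousWithinAt (fun p : Pa C g n × ℂ => fr D k p.1 p.2) (Om d W ×ˢ univ) (τ, A.e j y) := by
  obtain ⟨s, ℓ, β, e⟩ := D.loc ⟨(τ.1, y), h⟩ k hτ.1 hj hk
  have c := (cq (C := C) (g := g) (n := n)).continuousAt (x := (τ, A.e j y))
  have c1 : ContinuousAt (fun p : Pa C g n × ℂ => s (p.1.1, p.2)) (τ, A.e j y) :=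
    cqc e.self_of_nhds.1
  have c2 : ContinuousAt (fun p : Pa C g n × ℂ => ex p.1.2.1 (-ℓ (p.1.1, p.2))) (τ, A.e j y) :=
    ex_cont.continuousAt.comp (f := fun p : Pa C g n × ℂ => (p.1.2.1, -ℓ (p.1.1, p.2)))
      (continuousAt_fst.snd.fst.prodMk (cqc e.self_of_nhds.2.1).neg)
  have c3 : ContinuousAt (fun p : Pa C g n × ℂ => wv p.1.2.2 β⁻¹) (τ, A.e j y) :=
    (wv_cont _).continuousAt.comp continuousAt_fst.snd.snd
  refine (c1.smul (c2.mul c3)).continuousWithinAt.congr_of_eventuallyEq ?_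
    (Eqv.mf hτ.2.2.2 e.self_of_nhds.2.2.2)
  filter_upwards [self_mem_nhdsWithin, mem_nhdsWithin_of_mem_nhds (c.eventually e)] with p a b
  exact Eqv.mf a.1.2.2.2 b.2.2.2

theorem gm_det (hτ : τ ∈ Om d W) (w : ℂ) : (gm D τ w).det = D.θ (τ.1, w) ^ n := by
  rw [gm, Matrix.det_smul, det_ex, hτ.2.1, mul_zero, exp_zero, mul_one, Fintype.card_fin]

theorem gm_comm (τ : Pa C g n) (w : ℂ) : gm D τ w * τ.2.1 = τ.2.1 * gm D τ w := by
  rw [gm, smul_mul_assoc, ex_comm, mul_smul_comm]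

theorem fr_pole (hτ : τ ∈ Om d W) {s L : ℂ} {b : Fg g}
    (e : Eqv n d (D.S (τ.1, w), D.Λ (τ.1, w), D.B k (τ.1, w))
      (D.θ (τ.1, w) * s, L - D.η (τ.1, w), b)) :
    fr D k τ w = gm D τ w * mf τ.2.1 τ.2.2 (s, L, b) := by
  rw [fr, Eqv.mf hτ.2.2.2 e]
  simp only [gm, mf]
  rw [neg_sub, sub_eq_add_neg, ex_add, smul_mul_assoc, mul_smul_comm, smul_smul, mul_assoc]

theorem gm_cont (h1 : ContinuousAt D.θ (τ.1, w)) (h2 : ContinuousAt D.η (τ.1, w)) :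
    ContinuousAt (fun p : Pa C g n × ℂ => gm D p.1 p.2) (τ, w) :=
  (cqc h1).smul (ex_cont.continuousAt.comp
    (f := fun p : Pa C g n × ℂ => (p.1.2.1, D.η (p.1.1, p.2)))
      (continuousAt_fst.snd.fst.prodMk (cqc h2)))

theorem gm_an (h1 : AnalyticAt ℂ (fun v => D.θ (τ.1, v)) w)
    (h2 : AnalyticAt ℂ (fun v => D.η (τ.1, v)) w) : AnalyticAt ℂ (gm D τ) w :=
  h1.smul (ex_an analyticAt_const h2)

theorem ac_pole (hτ : τ ∈ Om d W) (hj : InR A r j τ.1) (h : w ≠ A.e j τ.1) :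
    (w - A.e j τ.1) • ac D τ w = τ.2.1 := by
  rw [ac, D.α1 ((D.src _ hτ.1).2 hj), smul_inv_smul₀ (sub_ne_zero.2 h)]

theorem ne_of_symm (hj : y ∈ (A.e j).source) (h : (A.e j).symm w ≠ y) : w ≠ A.e j y :=
  fun e => h (e ▸ (A.e j).left_inv hj)

theorem α_cont (hτ : τ ∈ Om d W) (h : (A.e j).symm w ≠ τ.1) :
    ContinuousAt D.α (τ.1, w) ∧ DifferentiableAt ℂ (fun v => D.α (τ.1, v)) w := by
  by_cases b : D.II
  · have hj := ((D.src _ hτ.1).1 b).1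
    have n0 := sub_ne_zero.2 (ne_of_symm hj h)
    rw [show D.α = _ from funext (D.α1 b)]
    exact ⟨(continuousAt_snd.sub (((A.e j).continuousAt hj).comp (f := Prod.fst)
      (x := (τ.1, w)) continuousAt_fst)).inv₀ n0, 
      (differentiableAt_id.sub_const (A.e j τ.1)).inv n0⟩
  · rw [show D.α = _ from funext (D.α0 b)]
    exact ⟨continuousAt_const, differentiableAt_const _⟩

omit D in
theorem ev_U [T2Space C] {x : C} (h : x ∈ P.V ∧ (A.e i).symm w ≠ x) (hw : w ∈ ball (0 : ℂ) A.R)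
    (hk : (⟨(x, (A.e i).symm w), h⟩ : Wd P.V) ∈ P.U k) : ∀ᶠ q : C × ℂ in 𝓝 (x, w),
      ∃ h' : q.1 ∈ P.V ∧ (A.e i).symm q.2 ≠ q.1, (⟨(q.1, (A.e i).symm q.2), h'⟩ : Wd P.V) ∈ P.U k := by
  obtain ⟨O, a, b⟩ := isOpen_induced_iff.1 (P.cy.opn k)
  have c : ContinuousAt (fun q : C × ℂ => (q.1, (A.e i).symm q.2)) (x, w) :=
    continuousAt_fst.prodMk ((contAt_symm hw).comp (f := Prod.snd) (x := (x, w)) continuousAt_snd)
  rw [← b] at hk ⊢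
  filter_upwards [c.eventually (a.mem_nhds hk), continuousAt_fst.eventually (P.opn.mem_nhds h.1),
    c.eventually (isClosed_diagonal.isOpen_compl.mem_nhds (Ne.symm h.2))] with q e f t
  exact ⟨⟨f, Ne.symm t⟩, e⟩

end Vale.Agent.P275GU
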